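import Vale.Agent.P144Z.Ising

/-!
The three main statements (critical parameters, convergence of the state, mixed correlations) and
the auxiliary notions of the estimates.
-/

namespace Vale.Agent.P144Z

open Finset Matrix Filter Topology

/-- The sector that is antiperiodic in both directions. -/
def AA : Bool × Bool := (true, true)

/-- The sup distance of the plane lattice. -/
def zd (u v : ℤ × ℤ) : ℕ := max (u.1 - v.1).natAbs (u.2 - v.2).natAbs

/-- An observable of the plane lattice, read on the torus from the origin. -/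
def obs (M : ℕ) (O : ((ℤ × ℤ) × Fin 2 → Bool) → ℝ) (n : Tor M × Fin 2 → Bool) : ℝ :=
  O fun e => n (prj M e.1, e.2)

/-- The mean energy of an edge in the antiperiodic sector. -/
noncomputable def en (q : Par) (M : ℕ) [NeZero M] (y : ℤ × ℤ) (d : Fin 2) : ℝ :=
  Zw q (sec M AA) (fun c => sgn (c (prj M y, d))) / Zw q (sec M AA) 1

/-- The mixed correlation in the antiperiodic sector. -/
noncomputable def mix (q : Par) (M : ℕ) [NeZero M] {n m : ℕ} (x : Fin n → ℤ × ℤ)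
    (y : Fin m → ℤ × ℤ) (d : Fin m → Fin 2) : ℝ :=
  Zw q (sec M AA * spinG M 0 x) (fun c => ∏ k, (sgn (c (prj M (y k), d k)) - en q M (y k) (d k)))
    / Zw q (sec M AA) 1

/-- Points at mutual distance more than `r`, in the square of radius `Λ r`. -/
structure Pos {n m : ℕ} (x : Fin n → ℤ × ℤ) (y : Fin m → ℤ × ℤ) (Λ r : ℕ) : Prop where
  xle : ∀ i, zd (x i) 0 ≤ Λ * r
  yle : ∀ k, zd (y k) 0 ≤ Λ * r
  xx : ∀ i i', i ≠ i' → r < zd (x i) (x i')
  xy : ∀ i k, r < zd (x i) (y k)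
  yy : ∀ k k', k ≠ k' → r < zd (y k) (y k')

/-- The torus with the fluxes of the spins `x` and the energy sources `y`. -/
noncomputable def geoM (M : ℕ) [NeZero M] {n m : ℕ} (x : Fin n → ℤ × ℤ) (y : Fin m → ℤ × ℤ)
    (d : Fin m → Fin 2) (J : ℕ) : Geo :=
  { M := M, A := sec M AA * spinG M 0 x, K := Fin m, src := fun k => enSrc (prj M (y k)) (d k),
    J := J }

/-- The torus with the gauge field `A` and without sources. -/
def geoA (M : ℕ) [NeZero M] (A : Gauge M) : Geo :=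
  { M := M, A := A, K := Empty, src := Empty.elim, J := 0 }

/-- The interaction is small. -/
def Par.Small (q : Par) (δ : ℝ) : Prop := |q.μ| * ∑ B ∈ potSets q.R, |q.V B| ≤ δ

/-- Critical parameters. -/
structure Crit (L : ℕ) (q : Par) (η δ : ℝ) : Prop where
  ok : q.Ok
  small : q.Small δ
  bulk : Bulk L q η
  x : |q.x - tc| ≤ η
  Z : |q.Z - 1| ≤ η

/-- The expectations of local observables converge, in the sum of the sectors and in the
antiperiodic sector, to the same limit. -/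
def StateOK (q : Par) : Prop :=
  ∀ (Y : Finset (ℤ × ℤ)) (O : ((ℤ × ℤ) × Fin 2 → Bool) → ℝ), (0, 0) ∈ Y →
    (∀ n n', (∀ e : (ℤ × ℤ) × Fin 2, e.1 ∈ Y → e.1 + uz e.2 ∈ Y → n e = n' e) → O n = O n') →
    (∀ n, |O n| ≤ 1) → ∃ o : ℝ,
      Tendsto (fun M : ℕ => (∑ θ, Zw q (sec (M + 1) θ) (obs (M + 1) O)) /
        ∑ θ, Zw q (sec (M + 1) θ) 1) atTop (𝓝 o) ∧
      Tendsto (fun M : ℕ => Zw q (sec (M + 1) AA) (obs (M + 1) O) / Zw q (sec (M + 1) AA) 1)
        atTop (𝓝 o)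

/-- The mixed correlations are those of the nearest-neighbour model up to the two constants. -/
def MainOK (q : Par) (Zσ Zε : ℝ) : Prop :=
  ∀ (n m Λ : ℕ), Even n → ∀ ε > 0, ∃ r₀ : ℕ, ∀ r ≥ r₀, ∀ (x : Fin n → ℤ × ℤ) (y : Fin m → ℤ × ℤ)
    (d : Fin m → Fin 2), Pos x y Λ r → ∃ M₀ : ℕ, ∀ (M : ℕ) [NeZero M], M₀ ≤ M →
      |mix q M x y d - Zσ ^ n * Zε ^ m * mix par0 M x y d| ≤
        ε / (r : ℝ) ^ m * |Zw par0 (sec M AA * spinG M 0 x) 1 / Zw par0 (sec M AA) 1|

/-- Existence of critical parameters. -/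
def BulkStmt : Prop :=
  ∃ L₀ : ℕ, ∀ L ≥ L₀, ∃ η₀ > 0, ∀ η, 0 < η → η ≤ η₀ → ∀ (V : Finset (ℤ × ℤ) → ℝ) (R : ℕ),
    P144.IsPotential V → (∀ B, V B ≠ 0 → (0, 0) ∈ B → B ∈ potSets R) → ∀ δ > 0, ∃ κ₀ > 0,
      ∀ κ : ℝ, |κ| < κ₀ → ∃ x Z : ℝ, Crit L ⟨V, R, κ * (-Real.log x), x, Z⟩ η δ

/-- Convergence of the state. -/
def StateStmt : Prop :=
  ∃ L₀ : ℕ, ∀ L ≥ L₀, ∃ η₀ > 0, ∀ R : ℕ, ∃ δ₀ > 0, ∀ q : Par, q.R = R → Crit L q η₀ δ₀ → StateOK q

/-- Universality of the mixed correlations. -/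
def MainStmt : Prop :=
  ∃ L₀ : ℕ, ∀ L ≥ L₀, ∀ ε > 0, ∃ η₀ > 0, ∀ R : ℕ, ∃ δ₀ > 0, ∀ q : Par, q.R = R →
    Crit L q η₀ δ₀ → ∃ Zσ Zε : ℝ, |Zσ - 1| < ε ∧ |Zε - 1| < ε ∧ MainOK q Zσ Zε

/-- The coefficient of the zero modes in the periodic sector. -/
noncomputable def kap (M : ℕ) [NeZero M] : ℝ :=
  aug (Ev.val ((geo0 M).Om (pp ((geo0 M).ex (zm M 0)) ((geo0 M).ex (zm M 1)))))

/-- The translation that carries `c` to `c'`. -/
def shf {M M' : ℕ} (c : Tor M) (c' : Tor M') (x : Tor M) : Tor M' := c' + prj M' (lft (x - c))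

namespace Geo

variable (g : Geo)

/-- The change of scale at `z` costs the factor `κ`. -/
def Sch (ℓ ℓ' : ℕ) (κ : ℝ) (z : g.P) : Prop :=
  ∀ φ, hsq g.A ℓ (ball z (2 * ℓ)) φ * ℓ' ≤ κ ^ 2 * ℓ * hsq g.A ℓ' (ball z (2 * ℓ')) φ

/-- The fluxes and the sources are covered by `N` squares of radius `ℓ`. -/
def Cov (N ℓ : ℕ) : Prop :=
  ∃ Z : Finset g.P, Z.card ≤ N ∧ (∀ f, flux g.A f = -1 → ∃ c ∈ Z, tdist f c ≤ ℓ) ∧
    ∀ k, ∃ c ∈ Z, tdist (g.src k).y c ≤ ℓ

/-- States that vanish without sources. -/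
def Free (s : g.St) : Prop := (∀ X, g.noB (s.K X) = 0) ∧ ∀ x, s.v x = 0

/-- The linear part of the step. -/
noncomputable def Lin (C : Matrix (Tor g.M × Fin 4) (Tor g.M × Fin 4) ℝ) (F : g.E) : g.E :=
  evG (g.exM C) F - g.noF (evG (g.exM C) F)

/-- The localized logarithm is a logarithm. -/
def ExpId (C : Matrix (Tor g.M × Fin 4) (Tor g.M × Fin 4) ℝ) (s : g.St) : Prop :=
  NormedSpace.exp (∑ U, Cl (evG (g.exM C)) s.H U) = evG (g.exM C) (NormedSpace.exp (∑ X, s.H X))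

/-- All the localized logarithms of the flow are logarithms. -/
structure Conv (L : ℕ) (q : Par) (N : ℕ) : Prop where
  init : NormedSpace.exp (∑ U, g.W0 q U) = g.E0 (q.x * q.Z) (NormedSpace.exp (∑ X, g.Hin q X))
  step : ∀ j < N, g.ExpId (covP (Dm g.A) (sc L j) (sc L (j + 1))) (g.flow L q 0 j)
  last : g.ExpId (covL (Dm g.A) (sc L N)) (g.flow L q 0 N)

/-- The constants of the initial step and of the flow; the scale of `cs j` is `sc L j`. -/
noncomputable def cs (L : ℕ) (q : Par) : ℕ → Finset g.P → g.E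
  | 0 => fun U => g.noF (g.W0 q U)
  | j + 1 => g.cst L q j

/-- The scalar constants of the sets of size at most `T` that see the point `f`. -/
noncomputable def sig (L : ℕ) (q : Par) (j : ℕ) (f : g.P) (T : ℕ) : ℝ :=
  ∑ U ∈ univ.filter (fun U : Finset g.P =>
      stein U ≤ T ∧ ∃ x ∈ U, tdist f x ≤ 2 * stein U + 3 * sc L j),
    aug (Ev.val (g.cs L q j U))

/-- The initial potential of isolated energy sources. -/
noncomputable def Wsrc (q : Par) (U : Finset g.P) : g.E :=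
  ∑ k ∈ univ.filter (fun k => g.put (g.src k).y (g.src k).Y = U), (g.bv k + g.z0 q k • g.bE k)

/-- The coefficient of the two zero modes. -/
noncomputable def dz (F : g.E) : g.E :=
  g.noF (toEv (del (g.ex (zm g.M 1)) (del (g.ex (zm g.M 0)) (Ev.val F))))

/-- The fluxes of `g` around `c` and of `g'` around `c'` are the same up to the distance `T`. -/
structure Match (g g' : Geo) (c : g.P) (c' : g'.P) (T : ℕ) : Prop where
  le : 4 * T + 1 ≤ g.M
  le' : 4 * T + 1 ≤ g'.M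
  fl : ∀ f, tdist f c ≤ T → flux g'.A (shf c c' f) = flux g.A f

/-- The source `k` of `g` and the source `k'` of `g'` are the same up to the step `j`. -/
structure MatchS (g g' : Geo) (c : g.P) (c' : g'.P) (k : g.K) (k' : g'.K) (j : ℕ) : Prop where
  y : (g'.src k').y = shf c c' (g.src k).y
  Y : (g'.src k').Y = (g.src k).Y
  O : (g'.src k').O = (g.src k).O
  on : (g'.src k').on = (g.src k).on
  dir : (g'.src k').dir = (g.src k).dir
  J : ∀ i < j, i < g.J ↔ i < g'.J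

end Geo

end Vale.Agent.P144Z
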