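import Mathlib

/-!
The abstract single-scale step: localized logarithm of an expectation with a finite range of
dependence.
-/

namespace Vale.Agent.P144Z

open Finset

section Cl

variable {P : Type} [DecidableEq P]
variable {𝒜 𝒜' : Type} [NormedCommRing 𝒜] [NormedAlgebra ℝ 𝒜] [NormedCommRing 𝒜']
  [NormedAlgebra ℝ 𝒜']

open Classical in
/-- A logarithm, if there is one. -/
noncomputable def lg (y : 𝒜') : 𝒜' := if h : ∃ g, NormedSpace.exp g = y then h.choose else 0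

/-- The localized logarithm of `E (exp (∑ H))`, by Moebius inversion over sets of points. -/
noncomputable def Cl (E : 𝒜 →ₗ[ℝ] 𝒜') (H : Finset P → 𝒜) (U : Finset P) : 𝒜' :=
  ∑ U' ∈ U.powerset, ((-1 : ℝ) ^ (U \ U').card) •
    lg (E (NormedSpace.exp (∑ X ∈ U'.powerset, H X)))

/-- Local subalgebras with norms. -/
structure LocSys (P 𝒜 : Type) [NormedCommRing 𝒜] [NormedAlgebra ℝ 𝒜] where
  sub : Finset P → Subalgebra ℝ 𝒜
  p : Finset P → 𝒜 → ℝ
  mono : ∀ {X Y}, X ⊆ Y → sub X ≤ sub Y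
  p_nonneg : ∀ X F, 0 ≤ p X F
  p_add : ∀ X F G, p X (F + G) ≤ p X F + p X G
  p_smul : ∀ X (c : ℝ) F, p X (c • F) = |c| * p X F
  p_mul : ∀ X F G, p X (F * G) ≤ p X F * p X G
  p_one : ∀ X, p X 1 ≤ 1
  p_mono : ∀ {X Y F}, X ⊆ Y → F ∈ sub X → p Y F ≤ p X F
  p_def : ∀ {X F}, F ∈ sub X → p X F = 0 → F = 0

/-- A neighbourhood relation and a size of sets of points. -/
structure Size (P : Type) [DecidableEq P] where
  adj : P → P → Prop
  refl : ∀ x, adj x x
  symm : ∀ {x y}, adj x y → adj y x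
  sz : Finset P → ℝ
  one_le : ∀ X, 1 ≤ sz X
  union_le : ∀ {X Y}, (∃ x ∈ X, ∃ y ∈ Y, adj x y) → sz (X ∪ Y) ≤ sz X + sz Y

/-- Two sets of points are neighbours. -/
def Size.touch (Z : Size P) (X Y : Finset P) : Prop := ∃ x ∈ X, ∃ y ∈ Y, Z.adj x y

open Classical in
/-- The weighted sum of `f` over the neighbours of any set is at most `ε` times its size. -/
def Size.Le [Fintype P] (Z : Size P) (τ : ℝ) (f : Finset P → ℝ) (ε : ℝ) : Prop :=
  ∀ Y : Finset P, ∑ X ∈ univ.filter (fun X => Z.touch X Y), f X * Real.exp (τ * Z.sz X)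
    ≤ ε * Z.sz Y

/-- An expectation that is local, bounded up to an exponential of the size, and factorizes. -/
structure IsExp (Z : Size P) (L : LocSys P 𝒜) (L' : LocSys P 𝒜') (κ : ℝ) (E : 𝒜 →ₗ[ℝ] 𝒜') :
    Prop where
  one : E 1 = 1
  mem : ∀ {X F}, F ∈ L.sub X → E F ∈ L'.sub X
  le : ∀ {X F}, F ∈ L.sub X → L'.p X (E F) ≤ Real.exp (κ * Z.sz X) * L.p X F
  mul : ∀ {X Y F G}, F ∈ L.sub X → G ∈ L.sub Y → ¬ Z.touch X Y → E (F * G) = E F * E G

/-- A family of sets that is connected for the relation `t`. -/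
def FamConn {ι : Type} (t : ι → ι → Prop) (𝒳 : Finset ι) : Prop :=
  ∀ X ∈ 𝒳, ∀ Y ∈ 𝒳, Relation.ReflTransGen (fun U W => W ∈ 𝒳 ∧ t U W) X Y

end Cl

end Vale.Agent.P144Z
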