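import Mathlib

/-!
Grassmann algebra over a finite set of generators, Gaussian convolution, the even algebra as a
commutative Banach algebra, and the norms given by anticommuting matrix fields.
-/

namespace Vale.Agent.P144Z

open Matrix

section Gr

variable {S S' : Type} [Fintype S] [DecidableEq S] [Fintype S'] [DecidableEq S']

/-- The Grassmann algebra with generators indexed by `S`. -/
abbrev Gr (S : Type) : Type := ExteriorAlgebra ℝ (S → ℝ)

/-- The field smeared with `δ`. -/
noncomputable def psi (δ : S → ℝ) : Gr S := ExteriorAlgebra.ι ℝ δ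

/-- The generator `s`. -/
noncomputable def gen (s : S) : Gr S := psi (Pi.single s 1)

/-- The scalar part. -/
noncomputable def aug : Gr S →ₐ[ℝ] ℝ := ExteriorAlgebra.algebraMapInv

/-- The pairing with `g`. -/
def pair (g : S → ℝ) : Module.Dual ℝ (S → ℝ) where
  toFun δ := δ ⬝ᵥ g
  map_add' a b := add_dotProduct a b g
  map_smul' c a := by simp [smul_dotProduct]

/-- The derivative in the direction `g`: `del g (psi δ * F) = (δ ⬝ᵥ g) • F - psi δ * del g F`. -/
noncomputable def del (g : S → ℝ) : Gr S →ₗ[ℝ] Gr S := CliffordAlgebra.contractLeft (pair g)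

/-- The quadratic part of `F` evaluated at two test functions. -/
noncomputable def beta (F : Gr S) (g g' : S → ℝ) : ℝ := aug (del g' (del g F))

/-- Minus the antisymmetric part of `C` as a bilinear form. -/
noncomputable def covB (C : Matrix S S ℝ) : LinearMap.BilinForm ℝ (S → ℝ) :=
  Matrix.toBilin' ((-(1 / 2) : ℝ) • (C - Cᵀ))

theorem covB_quad (C : Matrix S S ℝ) :
    (covB C).toQuadraticMap = (0 : QuadraticForm ℝ (S → ℝ)) - 0 := by
  ext v
  simp only [covB, LinearMap.BilinMap.toQuadraticMap_apply, Matrix.toBilin'_apply', sub_self,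
    _root_.zero_apply]
  rw [Matrix.smul_mulVec, Matrix.sub_mulVec, dotProduct_smul, dotProduct_sub,
    Matrix.mulVec_transpose, Matrix.dotProduct_mulVec, dotProduct_comm]
  simp

/-- Gaussian convolution with covariance `C` (for `C` antisymmetric:
`gauss C (psi δ * psi δ') = psi δ * psi δ' + δ ⬝ᵥ C *ᵥ δ'`). -/
noncomputable def gauss (C : Matrix S S ℝ) : Gr S →ₗ[ℝ] Gr S :=
  CliffordAlgebra.changeForm (covB_quad C)

/-- The elements that only involve the generators in `T`. -/
noncomputable def loc (T : Set S) : Subalgebra ℝ (Gr S) := Algebra.adjoin ℝ (gen '' T)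

/-- The even subalgebra. -/
noncomputable def evenS (S : Type) : Subalgebra ℝ (Gr S) :=
  CliffordAlgebra.even (0 : QuadraticForm ℝ (S → ℝ))

theorem psi_mul_comm_of_even {F : Gr S} (hF : F ∈ evenS S) (δ : S → ℝ) :
    psi δ * F = F * psi δ := by
  have hF' : F ∈ CliffordAlgebra.evenOdd (0 : QuadraticForm ℝ (S → ℝ)) 0 := hF
  induction F, hF' using CliffordAlgebra.even_induction with
  | algebraMap r => exact (Algebra.commutes r _).symm
  | add x y hx hy ihx ihy => rw [mul_add, add_mul, ihx hx, ihy hy]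
  | ι_mul_ι_mul m₁ m₂ x hx ih =>
    have h1 : ∀ a b : S → ℝ, psi a * psi b = -(psi b * psi a) := fun a b =>
      eq_neg_of_add_eq_zero_left (ExteriorAlgebra.ι_add_mul_swap a b)
    change psi δ * (psi m₁ * psi m₂ * x) = psi m₁ * psi m₂ * x * psi δ
    rw [mul_assoc (psi m₁ * psi m₂), ← ih hx, ← mul_assoc, ← mul_assoc, h1 δ m₁, ← mul_assoc,
      mul_assoc (psi m₁) (psi m₂), h1 m₂ δ]
    simp [mul_assoc]

theorem mul_comm_of_even {F : Gr S} (hF : F ∈ evenS S) (G : Gr S) : G * F = F * G := by
  induction G using ExteriorAlgebra.induction with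
  | algebraMap r => exact Algebra.commutes r _
  | ι x => exact psi_mul_comm_of_even hF x
  | mul a b ha hb => rw [mul_assoc, hb, ← mul_assoc, ha, mul_assoc]
  | add a b ha hb => rw [mul_add, add_mul, ha, hb]

/-- The even Grassmann algebra. -/
def Ev (S : Type) : Type := evenS S

noncomputable instance : CommRing (Ev S) :=
  { (inferInstanceAs (Ring (evenS S)) : Ring (Ev S)) with
    mul_comm := fun a b => Subtype.ext (mul_comm_of_even b.2 a.1) }

noncomputable instance : Algebra ℝ (Ev S) := inferInstanceAs (Algebra ℝ (evenS S))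

/-- The inclusion of the even algebra. -/
noncomputable def Ev.val : Ev S →ₐ[ℝ] Gr S := (evenS S).val

theorem Ev.val_injective : Function.Injective (Ev.val : Ev S → Gr S) := Subtype.val_injective

theorem Ev.val_mem (F : Ev S) : Ev.val F ∈ evenS S := F.2

instance : Module.Finite ℝ (Gr S) := by
  classical
  letI : LinearOrder S := LinearOrder.lift' (Fintype.equivFin S) (Fintype.equivFin S).injective
  exact Module.Finite.of_basis (Pi.basisFun ℝ S).ExteriorAlgebra

instance : Module.Finite ℝ (Ev S) :=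
  Module.Finite.of_injective (Ev.val (S := S)).toLinearMap Ev.val_injective

attribute [local instance] Matrix.linftyOpNormedRing Matrix.linftyOpNormedAlgebra in
/-- An auxiliary algebra norm; only its topology matters. -/
noncomputable instance : NormedCommRing (Ev S) :=
  { NormedRing.induced (Ev S) _ (Algebra.leftMulMatrix (Module.finBasis ℝ (Ev S)))
      (Algebra.leftMulMatrix_injective _) with
    mul_comm := mul_comm }

attribute [local instance] Matrix.linftyOpNormedRing Matrix.linftyOpNormedAlgebra in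
noncomputable instance : NormedAlgebra ℝ (Ev S) where
  norm_smul_le r x := by
    change ‖Algebra.leftMulMatrix (Module.finBasis ℝ (Ev S)) (r • x)‖
      ≤ ‖r‖ * ‖Algebra.leftMulMatrix (Module.finBasis ℝ (Ev S)) x‖
    rw [map_smul]
    exact norm_smul_le _ _

instance : CompleteSpace (Ev S) := FiniteDimensional.complete ℝ (Ev S)

/-- The even part. -/
noncomputable def toEv : Gr S →ₗ[ℝ] Ev S where
  toFun F := ⟨GradedAlgebra.proj (CliffordAlgebra.evenOdd (0 : QuadraticForm ℝ (S → ℝ))) 0 F,
    (DirectSum.decompose (CliffordAlgebra.evenOdd (0 : QuadraticForm ℝ (S → ℝ))) F 0).2⟩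
  map_add' a b := Subtype.ext (map_add _ a b)
  map_smul' c a := Subtype.ext (map_smul _ c a)

theorem toEv_val (F : Ev S) : toEv (Ev.val F) = F := by
  apply Subtype.ext
  exact DirectSum.decompose_of_mem_same
    (CliffordAlgebra.evenOdd (0 : QuadraticForm ℝ (S → ℝ))) (i := 0) F.2

theorem val_toEv {F : Gr S} (hF : F ∈ evenS S) : Ev.val (toEv F) = F :=
  DirectSum.decompose_of_mem_same (CliffordAlgebra.evenOdd (0 : QuadraticForm ℝ (S → ℝ)))
    (i := 0) hF

/-- A linear map of the Grassmann algebras, on even elements. -/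
noncomputable def evL (f : Gr S →ₗ[ℝ] Gr S') : Ev S →ₗ[ℝ] Ev S' :=
  toEv ∘ₗ f ∘ₗ (Ev.val (S := S)).toLinearMap

/-- The product of two smeared fields. -/
noncomputable def pp (δ δ' : S → ℝ) : Ev S := toEv (psi δ * psi δ')

/-- Gaussian convolution on even elements. -/
noncomputable def evG (C : Matrix S S ℝ) : Ev S →ₗ[ℝ] Ev S := evL (gauss C)

/-- Substitution of the fields, on even elements. -/
noncomputable def evMap (f : (S → ℝ) →ₗ[ℝ] (S' → ℝ)) : Ev S →ₗ[ℝ] Ev S' :=
  evL (ExteriorAlgebra.map f).toLinearMap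

/-- The even elements that only involve the generators in `T`. -/
noncomputable def evLoc (T : Set S) : Subalgebra ℝ (Ev S) := (loc T).comap Ev.val

open Classical in
/-- Restriction of a smearing function to `T`. -/
noncomputable def res (T : Set S) : (S → ℝ) →ₗ[ℝ] (S → ℝ) where
  toFun δ s := if s ∈ T then δ s else 0
  map_add' a b := by ext s; by_cases h : s ∈ T <;> simp [h]
  map_smul' c a := by ext s; by_cases h : s ∈ T <;> simp [h]

/-- The substitution `ψ ↦ ∑ t ^ w i ψ ∘ L i`, as a polynomial in `t`. -/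
noncomputable def wsub {ι : Type} [Fintype ι] (L : ι → (S → ℝ) →ₗ[ℝ] (S → ℝ)) (w : ι → ℕ) :
    Gr S →ₐ[ℝ] Polynomial (Gr S) :=
  ExteriorAlgebra.lift ℝ ⟨∑ i, (Polynomial.monomial (w i) : Gr S →ₗ[Gr S] _).restrictScalars ℝ ∘ₗ
    ExteriorAlgebra.ι ℝ ∘ₗ L i, fun δ => by
      simp only [LinearMap.coe_sum, Finset.sum_apply, LinearMap.comp_apply,
        LinearMap.restrictScalars_apply]
      rw [Finset.sum_mul_sum]
      simp only [Polynomial.monomial_mul_monomial]
      set x := ∑ i, ∑ j, Polynomial.monomial (w i + w j)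
        (ExteriorAlgebra.ι ℝ (L i δ) * ExteriorAlgebra.ι ℝ (L j δ)) with hx
      have h2 : x + x = 0 := by
        nth_rewrite 2 [hx]
        rw [Finset.sum_comm, hx, ← Finset.sum_add_distrib]
        refine Finset.sum_eq_zero fun i _ => ?_
        rw [← Finset.sum_add_distrib]
        refine Finset.sum_eq_zero fun j _ => ?_
        rw [add_comm (w j), ← map_add, ExteriorAlgebra.ι_add_mul_swap, map_zero]
      have h3 : (2 : ℝ) • x = 0 := by rw [two_smul]; exact h2
      exact (smul_eq_zero.1 h3).resolve_left two_ne_zero⟩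

end Gr

section Rep

/-- The operator norm of a complex matrix. -/
noncomputable def opn {n : Type} [Fintype n] [DecidableEq n] (A : Matrix n n ℂ) : ℝ :=
  ‖Matrix.toEuclideanCLM (n := n) (𝕜 := ℂ) A‖

/-- An anticommuting matrix-valued field. -/
structure Rep (S : Type) where
  n : Type
  [fin : Fintype n]
  [dec : DecidableEq n]
  Ψ : (S → ℝ) →ₗ[ℝ] Matrix n n ℂ
  sq : ∀ δ, Ψ δ * Ψ δ = 0

attribute [instance] Rep.fin Rep.dec

variable {S : Type} [Fintype S] [DecidableEq S]

/-- Evaluation at the field. -/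
noncomputable def Rep.ev (r : Rep S) : Gr S →ₐ[ℝ] Matrix r.n r.n ℂ :=
  ExteriorAlgebra.lift ℝ ⟨r.Ψ, r.sq⟩

/-- The field satisfies the constraints `𝒞`. -/
def Rep.In (r : Rep S) (𝒞 : Set ((S → ℝ) × ℝ)) : Prop := ∀ p ∈ 𝒞, opn (r.Ψ p.1) ≤ p.2

/-- The norm of `F` over the fields with constraints `𝒞`, the generators outside `T` being set to
zero. -/
noncomputable def nrm (𝒞 : Set ((S → ℝ) × ℝ)) (T : Set S) (F : Gr S) : ℝ :=
  sSup {a | ∃ r : Rep S, r.In 𝒞 ∧ a = opn (r.ev (ExteriorAlgebra.map (res T) F))}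

/-- Constraints that are nonnegative, bound every generator of `T` and leave room around `0`. -/
structure Adm (𝒞 : Set ((S → ℝ) × ℝ)) (T : Set S) : Prop where
  bdd : ∀ s ∈ T, ∃ c, (Pi.single s 1, c) ∈ 𝒞
  abs : ∃ ε > 0, ∀ p ∈ 𝒞, ε * ‖p.1‖ ≤ p.2

end Rep

end Vale.Agent.P144Z
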