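import Vale.Agent.P144.Defs

/-!
The plane half of Q1: states obtained from periodic boundary conditions.
-/

namespace Vale.Agent.P144Z

open Filter Topology MeasureTheory Vale.Agent.P144

/-- The periodic configuration given by a configuration of the torus of side `M`. -/
def per (M : ℕ) (s : ZMod M × ZMod M → Bool) : Config := fun x => s ((x.1 : ZMod M), (x.2 : ZMod M))

open Classical in
/-- The energy of one period: every term is shared equally among its sites, and the shares of the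
sites of `[0, M)²` are added. -/
noncomputable def energyT (J lam : ℝ) (V : Finset Site → ℝ) (M : ℕ) (σ : Config) : ℝ :=
  -∑ x ∈ Finset.Ico (0 : ℤ) M ×ˢ Finset.Ico (0 : ℤ) M, ∑ᶠ (A : Finset Site) (_ : x ∈ A),
    ((if IsEdge A then J else 0) + lam * V A) / A.card * ∏ y ∈ A, sp (σ y)

/-- The Gibbs expectation in the box of side `M + 1` with periodic boundary conditions. -/
noncomputable def gibbsT (J lam : ℝ) (V : Finset Site → ℝ) (β : ℝ) (M : ℕ) (F : Config → ℝ) : ℝ :=
  (∑ s : ZMod (M + 1) × ZMod (M + 1) → Bool,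
      F (per (M + 1) s) * Real.exp (-β * energyT J lam V (M + 1) (per (M + 1) s)))
    / ∑ s : ZMod (M + 1) × ZMod (M + 1) → Bool,
      Real.exp (-β * energyT J lam V (M + 1) (per (M + 1) s))

/-- `μ` is a translation-invariant infinite-volume Gibbs state (DLR equations) that is the weak
limit of the finite-volume Gibbs measures with periodic boundary conditions. -/
def IsTorusState (J lam : ℝ) (V : Finset Site → ℝ) (β : ℝ) (μ : Measure Config) : Prop :=
  IsProbabilityMeasure μ ∧ (∀ t : Site, μ.map (fun σ x => σ (x + t)) = μ) ∧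
  (∀ Λ A : Finset Site, ∫ η, gibbs J lam V β (some η) Λ (fun σ => ∏ x ∈ A, sp (σ x)) ∂μ
    = ∫ σ, ∏ x ∈ A, sp (σ x) ∂μ) ∧
  ∀ A : Finset Site, Tendsto (fun M => gibbsT J lam V β M fun σ => ∏ x ∈ A, sp (σ x)) atTop
    (𝓝 (∫ σ, ∏ x ∈ A, sp (σ x) ∂μ))

/-- The expectation in `μ`, for every mesh. -/
noncomputable def famOf (μ : Measure Config) : Fam := fun _ F => ∫ σ, F σ ∂μ

/-- The plane half of Q1, with the difference of the rescaled correlations tending to zero. -/
def PlaneQ1 : Prop :=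
  ∀ J > 0, ∀ V, IsPotential V → ∀ ε > 0, ∃ lam₀ > 0, ∀ lam : ℝ, |lam| < lam₀ →
    ∃ β > 0, ∃ Zσ Zε : ℝ, |β - Kc / J| < ε ∧ |Zσ - 1| < ε ∧ |Zε - 1| < ε ∧ Zσ ≠ 0 ∧ Zε ≠ 0 ∧
      ∃ μ, IsTorusState J lam V β μ ∧
        ∀ E₀, PlaneFam J 0 (fun _ => 0) (Kc / J) E₀ →
          (∀ p, Good Set.univ p → Tendsto
            (fun a => corr a (famOf μ a) p - Zσ ^ p.n * Zε ^ p.m * corr a (E₀ a) p)
            (𝓝[>] 0) (𝓝 0)) ∧
          Identity Set.univ E₀ (famOf μ) Zσ Zε

end Vale.Agent.P144Z
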