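import Vale.Agent.P144Z.RG
import Vale.Agent.P144Z.Stmt

/-!
Contours on the torus, sectors, strings, and the functionals that link the spin model to the
Grassmann algebra. Norms of the flow.
-/

namespace Vale.Agent.P144Z

open Finset Matrix

/-- The covariance of the site action. -/
def gA (a b : Fin 4) : ℝ :=
  if a < b then (-1) ^ ((b : ℕ) - a + 1) else if b < a then (-1) ^ ((a : ℕ) - b) else 0

/-- The ultralocal covariance. -/
def gM (M : ℕ) : Matrix (Tor M × Fin 4) (Tor M × Fin 4) ℝ :=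
  Matrix.of fun s s' => if s.1 = s'.1 then gA s.2 s'.2 else 0

/-- The torus without gauge field and without sources. -/
def geo0 (M : ℕ) [NeZero M] : Geo := { M := M, A := 1, K := Empty, src := Empty.elim, J := 0 }

/-- The torus with the gauge field `A` and one source. -/
def geo1 (M : ℕ) [NeZero M] (A : Gauge M) (s : Src M) (J : ℕ) : Geo :=
  { M := M, A := A, K := Unit, src := fun _ => s, J := J }

section

variable {M : ℕ} [NeZero M]

/-- The Grassmann sign of a set of edges. -/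
noncomputable def cw (n : Tor M × Fin 2 → Bool) : ℝ :=
  aug (Ev.val (evG ((geo0 M).exM (gM M))
    (∏ e : Tor M × Fin 2, if n e then (geo0 M).edge e.1 e.2 else 1)))

/-- The weight of a set of edges in the gauge field `A`. -/
noncomputable def wt (A : Gauge M) (x : ℝ) (n : Tor M × Fin 2 → Bool) : ℝ :=
  ∏ e, if n e then x * A e else 1

/-- The interaction energy of a set of edges. -/
noncomputable def uint (q : Par) (n : Tor M × Fin 2 → Bool) : ℝ :=
  ∑ y : Tor M, ∑ B ∈ potSets q.R, q.μ * q.V B / B.card * spinFn B ((geo0 M).see y n)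

/-- The signed contour sum. -/
noncomputable def Zw (q : Par) (A : Gauge M) (Φ : (Tor M × Fin 2 → Bool) → ℝ) : ℝ :=
  ∑ n, cw n * wt A q.x n * Real.exp (uint q n) * Φ n

/-- The domain walls of a spin configuration; the spin `u` sits at the face with south-west
vertex `u`. -/
def dom (σ : Tor M → Bool) (e : Tor M × Fin 2) : Bool :=
  xor (σ e.1) (σ (e.1 - uv M (if e.2 = 0 then 1 else 0)))

/-- The straight cycles: horizontal if `θ.1`, vertical if `θ.2`. -/
def cyc (θ : Bool × Bool) (e : Tor M × Fin 2) : Bool :=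
  if e.2 = 0 then θ.1 && decide (e.1.2 = 0) else θ.2 && decide (e.1.1 = 0)

/-- The four sectors; the seams lie at the coordinate `M / 2`. -/
def sec (M : ℕ) (θ : Bool × Bool) : Gauge M := fun e =>
  if e.2 = 0 then (if θ.1 = true ∧ e.1.1 = ((M / 2 : ℕ) : ZMod M) then -1 else 1)
  else (if θ.2 = true ∧ e.1.2 = ((M / 2 : ℕ) : ZMod M) then -1 else 1)

/-- The string from the spin `a` to the spin `b`. -/
noncomputable def strG (M : ℕ) (a b : ℤ × ℤ) : Gauge M := fun e =>
  (∏ i ∈ Finset.Ico (min a.1 b.1) (max a.1 b.1),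
    if e = (prj M ((i, a.2) + uz 0), 1) then -1 else 1) *
  ∏ i ∈ Finset.Ico (min a.2 b.2) (max a.2 b.2), if e = (prj M ((b.1, i) + uz 1), 0) then -1 else 1

/-- The gauge field of the spins `x i`: strings from the base point `a`. -/
noncomputable def spinG (M : ℕ) {n : ℕ} (a : ℤ × ℤ) (x : Fin n → ℤ × ℤ) : Gauge M :=
  ∏ i, strG M a (x i)

end

/-- The edge dual to the bond from the spin `u` in direction `j`: its start and direction. -/
def dualE (u : ℤ × ℤ) (j : Fin 2) : (ℤ × ℤ) × Fin 2 := (u + uz j, if j = 0 then 1 else 0)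

/-- The parameters of the critical nearest-neighbour model. -/
noncomputable def par0 : Par := ⟨fun _ => 0, 0, 0, tc, 1⟩

/-- The potential is admissible and `R` bounds its range. -/
structure Par.Ok (q : Par) : Prop where
  pot : P144.IsPotential q.V
  range : ∀ B, q.V B ≠ 0 → (0, 0) ∈ B → B ∈ potSets q.R
  x_lo : 1 / 4 ≤ q.x
  x_hi : q.x ≤ 1 / 2
  Z_lo : 1 / 2 ≤ q.Z
  Z_hi : q.Z ≤ 2

namespace Geo

variable (g : Geo)

/-- The critical free functional, with values in the algebra of the sources. -/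
noncomputable def Om (F : g.E) : g.E :=
  g.noF (evG (g.exM (gM g.M)) (NormedSpace.exp (tc • ∑ e : Tor g.M × Fin 2, g.edge e.1 e.2) * F))

/-- Well-formed states. -/
structure Wf (s : g.St) : Prop where
  K0 : s.K ∅ = 0
  Kmem : ∀ X, s.K X ∈ g.sub X
  KnoF : ∀ X, g.noF (s.K X) = 0
  vmem : ∀ x, s.v x ∈ g.sub (star x)
  vnoF : ∀ x, g.noF (s.v x) = 0
  vnoB : ∀ x, g.noB (s.v x) = s.v x
  vquad : ∀ x C, Cᵀ = -C → ∃ c : ℝ, evG (g.exM C) (s.v x) = s.v x + c • 1

/-- The state with sources only. -/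
noncomputable def srcSt (z : g.K → ℝ) : g.St := ⟨0, 0, z⟩

/-- Multiplication of all source variables by `s`. -/
noncomputable def scB (s : ℝ) : g.E →ₗ[ℝ] g.E :=
  evMap (LinearMap.id + (s - 1) • res {t : g.S | ∃ k, t = Sum.inr (k, 0)})

/-- The same for states. -/
noncomputable def St.scB {g : Geo} (s : ℝ) (t : g.St) : g.St :=
  ⟨fun X => g.scB s (t.K X), fun x => g.scB s (t.v x), fun k => s * t.z k⟩

/-- Sets that do not see the fluxes and the topology at scale `ℓ`. -/
def nd (ℓ : ℕ) (X : Finset g.P) : Prop :=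
  (∀ x ∈ X, Flat g.A x (2 * stein X + 3 * ℓ)) ∧ 4 * (2 * stein X + 3 * ℓ) + 1 ≤ g.M

open Classical in
/-- The defect part of a term with support `X`. -/
noncomputable def dp (ℓ : ℕ) (X : Finset g.P) (F : g.E) : g.E :=
  if g.nd ℓ X then F - g.noB F else F

/-- The defect size of the difference of two states. -/
noncomputable def df (ℓ : ℕ) (h β : ℝ) (s s' : g.St) (X : Finset g.P) : ℝ :=
  g.pn ℓ h β X (g.dp ℓ X (s.K X - s'.K X)) + g.pn ℓ h β X (g.dp ℓ X (s.car X - s'.car X))

open Classical in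
/-- The bulk size of a state. -/
noncomputable def bf (ℓ : ℕ) (h : ℝ) (s : g.St) (X : Finset g.P) : ℝ :=
  if g.nd ℓ X then g.pn ℓ h 1 X (g.noB (s.K X)) + g.pn ℓ h 1 X (g.noB (s.car X)) else 0

/-- The sum of all constants. -/
noncomputable def tot (L : ℕ) (q : Par) (N : ℕ) : g.E :=
  ∑ U, g.noF (g.W0 q U) + ∑ j ∈ range N, ∑ U, g.cst L q j U + ∑ U, g.noF (g.last L q N U)

/-- The fluxes and the sources are at mutual distance more than `r`. -/
structure Sep (r : ℕ) : Prop where
  ff : ∀ f f', flux g.A f = -1 → flux g.A f' = -1 → f ≠ f' → r < tdist f f'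
  fs : ∀ f k, flux g.A f = -1 → r < tdist f (g.src k).y
  ss : ∀ k k', k ≠ k' → r < tdist (g.src k).y (g.src k').y

end Geo

/-- The radius of the bulk norm. -/
noncomputable def hb (L j : ℕ) : ℝ := (L : ℝ) ^ 3 * 2 ^ j

/-- The rate of decay. -/
noncomputable def th (L : ℕ) : ℝ := (√(L : ℝ))⁻¹

/-- The bulk flow of `q` tends to zero, with amplitude `η`. -/
def Bulk (L : ℕ) (q : Par) (η : ℝ) : Prop :=
  ∃ ν ζ : ℕ → ℝ, ∀ j, hb L j ^ 2 * (sc L j * |ν j| + |ζ j|) ≤ η * th L ^ j ∧
    ∀ (M : ℕ) [NeZero M], 16 * (q.R + 1) ≤ M → 16 * sc L j ≤ M →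
      (∀ x, ((geo0 M).flow L q 0 j).v x = ν j • (geo0 M).O1 x + ζ j • (geo0 M).O2 x) ∧
      Anch (sc L j) L (fun X => (geo0 M).pn (sc L j) (hb L j) 1 X
        (((geo0 M).flow L q 0 j).K X)) (η * th L ^ j)

end Vale.Agent.P144Z
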