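import Vale.Agent.P144Z.Gr
import Vale.Agent.P144Z.Cl

/-!
The torus, gauge fields, the fermion operator of the critical contour model, Sobolev norms at a
scale, and the finite-range decomposition.
-/

namespace Vale.Agent.P144Z

open Finset Matrix

/-- The discrete torus. -/
abbrev Tor (M : ℕ) : Type := ZMod M × ZMod M

/-- The projection of the plane lattice. -/
def prj (M : ℕ) (v : ℤ × ℤ) : Tor M := ((v.1 : ZMod M), (v.2 : ZMod M))

/-- The centred representative of a point of the torus. -/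
def lft {M : ℕ} (x : Tor M) : ℤ × ℤ := (x.1.valMinAbs, x.2.valMinAbs)

/-- The sup distance of the torus. -/
def tdist {M : ℕ} (x y : Tor M) : ℕ := max (lft (x - y)).1.natAbs (lft (x - y)).2.natAbs

/-- The unit vectors. -/
def uv (M : ℕ) (i : Fin 2) : Tor M := if i = 0 then (1, 0) else (0, 1)

/-- Connected for the adjacency `tdist ≤ 1`. -/
def Conn {M : ℕ} (Y : Finset (Tor M)) : Prop :=
  ∀ x ∈ Y, ∀ y ∈ Y, Relation.ReflTransGen (fun u w => w ∈ Y ∧ tdist u w ≤ 1) x y

/-- The Steiner size: the least number of points of a connected superset, minus one. -/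
noncomputable def stein {M : ℕ} (X : Finset (Tor M)) : ℕ :=
  sInf {n | ∃ Y : Finset (Tor M), X ⊆ Y ∧ Conn Y ∧ Y.card ≤ n + 1}

/-- A point with its four neighbours. -/
def star {M : ℕ} (x : Tor M) : Finset (Tor M) :=
  {x, x + uv M 0, x - uv M 0, x + uv M 1, x - uv M 1}

/-- A set with the neighbours of its points. -/
def plus {M : ℕ} (X : Finset (Tor M)) : Finset (Tor M) := X.biUnion star

section

variable {M : ℕ} [NeZero M]

/-- The square of radius `r`. -/
def ball (z : Tor M) (r : ℕ) : Finset (Tor M) := univ.filter fun x => tdist x z ≤ r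

/-- The anchored weighted sum of `f` at scale `ℓ` is at most `ε`. -/
def Anch (ℓ : ℕ) (τ : ℝ) (f : Finset (Tor M) → ℝ) (ε : ℝ) : Prop :=
  ∀ z : Tor M, ∑ X ∈ univ.filter (fun X : Finset (Tor M) => ∃ x ∈ X, tdist x z ≤ ℓ),
    f X * Real.exp (τ * (stein X : ℝ) / ℓ) ≤ ε

end

/-- A gauge field: `A (x, i)` is the sign of the edge from `x` to `x + e_i`. -/
abbrev Gauge (M : ℕ) : Type := Tor M × Fin 2 → ℝ

/-- The values are signs. -/
def IsSign {α : Type} (A : α → ℝ) : Prop := ∀ e, A e = 1 ∨ A e = -1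

/-- The flux through the face whose south-west vertex is `f`. -/
def flux {M : ℕ} (A : Gauge M) (f : Tor M) : ℝ :=
  A (f, 0) * A (f + uv M 0, 1) * A (f + uv M 1, 0) * A (f, 1)

/-- No flux at the faces whose south-west vertex is within distance `r` of `z`. -/
def Flat {M : ℕ} (A : Gauge M) (z : Tor M) (r : ℕ) : Prop := ∀ f, tdist f z ≤ r → flux A f = 1

/-- The critical weight. -/
noncomputable def tc : ℝ := √2 - 1

/-- The site matrix. -/
def sA (a b : Fin 4) : ℝ := if a < b then 1 else if b < a then -1 else 0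

/-- The upper part of the hopping matrix: half-edges `0,1,2,3` point east, north, west, south. -/
def hop {M : ℕ} (A : Gauge M) (s s' : Tor M × Fin 4) : ℝ :=
  (if s.2 = 0 ∧ s'.2 = 2 ∧ s'.1 = s.1 + uv M 0 then A (s.1, 0) else 0) +
  (if s.2 = 1 ∧ s'.2 = 3 ∧ s'.1 = s.1 + uv M 1 then A (s.1, 1) else 0)

/-- The fermion operator of the critical contour model in the gauge field `A`. -/
noncomputable def Dm {M : ℕ} (A : Gauge M) : Matrix (Tor M × Fin 4) (Tor M × Fin 4) ℝ :=
  Matrix.of fun s s' => (if s.1 = s'.1 then sA s.2 s'.2 else 0) + tc * (hop A s s' - hop A s' s)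

section

variable {M : ℕ} [NeZero M]

/-- The squared norm on a set of points. -/
def l2sq (B : Finset (Tor M)) (g : Tor M × Fin 4 → ℝ) : ℝ := ∑ x ∈ B, ∑ a, g (x, a) ^ 2

/-- The squared Sobolev norm of order four at scale `ρ` on the set `B`. -/
noncomputable def hsq (A : Gauge M) (ρ : ℝ) (B : Finset (Tor M)) (g : Tor M × Fin 4 → ℝ) : ℝ :=
  ∑ k ∈ range 5, ρ ^ (2 * k) * l2sq B ((Dm A ^ k) *ᵥ g)

/-- The squared covariant gradient, summed over the edges that start in `B`. -/
def gradsq (A : Gauge M) (B : Finset (Tor M)) (g : Tor M × Fin 4 → ℝ) : ℝ :=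
  ∑ x ∈ B, ∑ i, ∑ a, (A (x, i) * g (x + uv M i, a) - g (x, a)) ^ 2

/-- `c` dominates the dual Sobolev norm of `δ` at scale `ℓ` around `z`. -/
def Dom (A : Gauge M) (ℓ : ℕ) (z : Tor M) (δ : Tor M × Fin 4 → ℝ) (c : ℝ) : Prop :=
  ∀ g, (δ ⬝ᵥ g) ^ 2 * ℓ ≤ c ^ 2 * hsq A ℓ (ball z (2 * ℓ)) g

/-- `δ` vanishes outside the square of radius `r` around `z`. -/
def SuppIn (δ : Tor M × Fin 4 → ℝ) (z : Tor M) (r : ℕ) : Prop := ∀ s, r < tdist s.1 z → δ s = 0

end

/-- An orthonormal basis of the constant zero modes. -/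
noncomputable def kv (a : Fin 2) : Fin 4 → ℝ :=
  if a = 0 then ![√2 / 2, -1 / 2, 0, 1 / 2] else ![0, 1 / 2, -√2 / 2, 1 / 2]

/-- An orthonormal basis of the massive modes. -/
noncomputable def nv (a : Fin 2) : Fin 4 → ℝ :=
  if a = 0 then ![√2 / 2, 1 / 2, 0, -1 / 2] else ![0, 1 / 2, √2 / 2, 1 / 2]

/-- The massive correction of the linear modes. -/
noncomputable def mv (b i : Fin 2) : Fin 4 → ℝ :=
  ((2 - √2) / 8) • (if b = i then nv 0 else if b = 0 then -nv 1 else nv 1)

/-- The gauge sign along a straight path of `n` steps from `x` in direction `i`. -/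
noncomputable def line {M : ℕ} (A : Gauge M) (x : Tor M) (i : Fin 2) (n : ℤ) : ℝ :=
  ∏ m ∈ Finset.Ico (min 0 n) (max 0 n), A (x + m • uv M i, i)

/-- The gauge sign along the path from `x` to `y`, first horizontal, then vertical. -/
noncomputable def trans {M : ℕ} (A : Gauge M) (x y : Tor M) : ℝ :=
  line A x 0 (lft (y - x)).1 * line A (x + (lft (y - x)).1 • uv M 0) 1 (lft (y - x)).2

/-- The coordinate `i` of a point of the plane lattice. -/
def crd (v : ℤ × ℤ) (i : Fin 2) : ℤ := if i = 0 then v.1 else v.2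

/-- The constant test functions around `x`. -/
noncomputable def tf0 {M : ℕ} (A : Gauge M) (x : Tor M) (a : Fin 2) (s : Tor M × Fin 4) : ℝ :=
  trans A x s.1 * kv a s.2

/-- The linear test functions around `x`. -/
noncomputable def tf1 {M : ℕ} (A : Gauge M) (x : Tor M) (b i : Fin 2) (s : Tor M × Fin 4) : ℝ :=
  trans A x s.1 * ((crd (lft (s.1 - x)) i : ℝ) * kv b s.2 + mv b i s.2)

/-- The smearing function of the critical field `a` at `x`. -/
noncomputable def fld {M : ℕ} (x : Tor M) (a : Fin 2) (s : Tor M × Fin 4) : ℝ :=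
  if s.1 = x then kv a s.2 else 0

/-- The smearing function of the symmetric derivative of the critical field. -/
noncomputable def dfld {M : ℕ} (A : Gauge M) (x : Tor M) (b i : Fin 2) : Tor M × Fin 4 → ℝ :=
  (1 / 2 : ℝ) • (A (x, i) • fld (x + uv M i) b - A (x - uv M i, i) • fld (x - uv M i) b)

/-- The smearing function of the north-east corner of `x`. -/
def cnr {M : ℕ} (x : Tor M) (s : Tor M × Fin 4) : ℝ :=
  if s.1 = x then (if s.2 = 0 then -1 else 1) else 0

open Polynomial in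
/-- The cut-off polynomial: a power of the normalized Dirichlet kernel. -/
noncomputable def rp (m : ℕ) : ℝ[X] :=
  ((C (1 / (2 * (m : ℝ) + 1)) * (1 + 2 * ∑ k ∈ Finset.Icc 1 m, Chebyshev.T ℝ k)).comp
    (1 - C (1 / 8) * X)) ^ 8

open Polynomial in
/-- `(1 - rp m) / X`. -/
noncomputable def qp (m : ℕ) : ℝ[X] := divX (1 - rp m)

section

variable {S : Type} [Fintype S] [DecidableEq S]

/-- The part of the covariance between the scales `ℓ` and `ℓ'`. -/
noncomputable def covP (D : Matrix S S ℝ) (ℓ ℓ' : ℕ) : Matrix S S ℝ :=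
  D * Polynomial.aeval (Dᵀ * D) (qp (ℓ' / 32) - qp (ℓ / 32))

/-- The full covariance, minus the pseudo-inverse of `D`. -/
noncomputable def covI (D : Matrix S S ℝ) : Matrix S S ℝ :=
  D * cfc (fun s : ℝ => s⁻¹) (Dᵀ * D)

/-- The part of the covariance above the scale `ℓ`. -/
noncomputable def covL (D : Matrix S S ℝ) (ℓ : ℕ) : Matrix S S ℝ :=
  covI D * Polynomial.aeval (Dᵀ * D) (rp (ℓ / 32))

/-- An antisymmetric matrix of norm at most four. -/
structure IsD (D : Matrix S S ℝ) : Prop where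
  anti : Dᵀ = -D
  le : ∀ v : S → ℝ, (D *ᵥ v) ⬝ᵥ (D *ᵥ v) ≤ 16 * (v ⬝ᵥ v)

/-- The covariance `C` has a Gram bound `c` relative to the dual Sobolev norm at scale `ℓ`. -/
def GramLe (D C : Matrix S S ℝ) (ℓ : ℕ) (c : ℝ) : Prop :=
  ∃ Q : Matrix S S ℝ, Q.PosSemidef ∧
    (∀ δ δ', (δ ⬝ᵥ C *ᵥ δ') ^ 2 ≤ (δ ⬝ᵥ Q *ᵥ δ) * (δ' ⬝ᵥ Q *ᵥ δ')) ∧
    ∀ δ (c' : ℝ), (∀ g, (δ ⬝ᵥ g) ^ 2 * ℓ ≤ c' ^ 2 *
      ∑ k ∈ range 5, (ℓ : ℝ) ^ (2 * k) * (((D ^ k) *ᵥ g) ⬝ᵥ ((D ^ k) *ᵥ g))) →
      δ ⬝ᵥ Q *ᵥ δ ≤ (c * c') ^ 2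

end

/-- The holonomy of every line in direction `i` is `-1`. -/
def Anti {M : ℕ} [NeZero M] (A : Gauge M) (i : Fin 2) : Prop :=
  ∀ x : Tor M, ∏ m ∈ range M, A (x + m • uv M i, i) = -1

/-- All fluxes lie in the square of radius `R` around `c`, at mutual distance more than `r`, and
outside this square the field agrees with the flat field `A'`. -/
structure Cluster {M : ℕ} (A A' : Gauge M) (c : Tor M) (R r : ℕ) : Prop where
  sign : IsSign A
  sign' : IsSign A'
  flat : ∀ f, flux A' f = 1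
  out : ∀ e, R < tdist e.1 c → A e = A' e
  near : ∀ f, flux A f = -1 → tdist f c ≤ R
  sep : ∀ f f', flux A f = -1 → flux A f' = -1 → f ≠ f' → r < tdist f f'

/-- The normalized constant zero modes. -/
noncomputable def zm (M : ℕ) (a : Fin 2) (s : Tor M × Fin 4) : ℝ := kv a s.2 / M


end Vale.Agent.P144Z
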