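import Vale.Agent.P144Z.Lat
import Vale.Agent.P144.Defs

/-!
The renormalisation group map on the torus in a gauge field with sources.
-/

namespace Vale.Agent.P144Z

open Finset Matrix

/-- A local observable of the contours, placed at a point. `n (v, i)` is the occupation of the
edge from `v` to `v + e_i`. -/
structure Src (M : ℕ) where
  y : Tor M
  Y : Finset (ℤ × ℤ)
  O : ((ℤ × ℤ) × Fin 2 → Bool) → ℝ
  on : Bool
  dir : Fin 2

/-- The sign of an occupation number. -/
def sgn (b : Bool) : ℝ := if b then -1 else 1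

/-- The unit vectors of the plane lattice. -/
def uz (i : Fin 2) : ℤ × ℤ := if i = 0 then (1, 0) else (0, 1)

/-- The observable only depends on edges with both ends in `Y`, is bounded by one, and is the
energy of the edge `dir` if `on` is set. -/
structure Src.Ok {M : ℕ} (s : Src M) : Prop where
  zero : (0, 0) ∈ s.Y
  dep : ∀ n n', (∀ e : (ℤ × ℤ) × Fin 2, e.1 ∈ s.Y → e.1 + uz e.2 ∈ s.Y → n e = n' e) →
    s.O n = s.O n'
  bd : ∀ n, |s.O n| ≤ 1
  en : s.on = true → s.Y = {(0, 0), uz s.dir} ∧ s.O = fun n => sgn (n ((0, 0), s.dir))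

/-- The energy source at `y` in direction `i`. -/
def enSrc {M : ℕ} (y : Tor M) (i : Fin 2) : Src M :=
  ⟨y, {(0, 0), uz i}, fun n => sgn (n ((0, 0), i)), true, i⟩

/-- A torus with a gauge field and sources; the sources are renormalised below the scale `J`. -/
structure Geo where
  M : ℕ
  [ne : NeZero M]
  A : Gauge M
  K : Type
  [fin : Fintype K]
  [dec : DecidableEq K]
  src : K → Src M
  J : ℕ

attribute [instance] Geo.ne Geo.fin Geo.dec

/-- Signs and admissible sources. -/
structure Geo.Ok (g : Geo) : Prop where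
  sign : IsSign g.A
  src : ∀ k, (g.src k).Ok

namespace Geo

variable (g : Geo)

/-- The points. -/
abbrev P : Type := Tor g.M

/-- The generators: four fields per point, two per source. -/
abbrev S : Type := (Tor g.M × Fin 4) ⊕ (g.K × Fin 2)

/-- The even algebra. -/
abbrev E : Type := Ev g.S

/-- The position of a generator. -/
def pos : g.S → g.P := Sum.elim Prod.fst fun k => (g.src k.1).y

/-- The generators located in `X`. -/
def gens (X : Finset g.P) : Set g.S := {s | g.pos s ∈ X}

/-- The sign change of the fields. -/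
noncomputable def flip : (g.S → ℝ) →ₗ[ℝ] (g.S → ℝ) :=
  res (Set.range Sum.inr) - res (Set.range Sum.inl)

/-- The local algebra of `X`: generators in `X`, even in the fields and even in the sources. -/
noncomputable def sub (X : Finset g.P) : Subalgebra ℝ g.E :=
  evLoc (g.gens X) ⊓
    (AlgHom.equalizer (ExteriorAlgebra.map g.flip) (AlgHom.id ℝ (Gr g.S))).comap Ev.val

/-- A function of the fields, extended by zero. -/
def ex (δ : Tor g.M × Fin 4 → ℝ) : g.S → ℝ := Sum.elim δ 0

/-- A matrix of the fields, extended by zero. -/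
def exM (C : Matrix (Tor g.M × Fin 4) (Tor g.M × Fin 4) ℝ) : Matrix g.S g.S ℝ :=
  Matrix.fromBlocks C 0 0 0

/-- The constraints at scale `ℓ` with radius `h` and source weight `β`. -/
def cons (ℓ : ℕ) (h β : ℝ) (X : Finset g.P) : Set ((g.S → ℝ) × ℝ) :=
  {p | ∃ z ∈ X, ∃ δ c, SuppIn δ z ℓ ∧ 0 ≤ c ∧ Dom g.A ℓ z δ c ∧ p = (g.ex δ, h * c)} ∪
  {p | ∃ k i, (g.src k).y ∈ X ∧ p = (Pi.single (Sum.inr (k, i)) 1, √β)}

/-- The norm at scale `ℓ`. -/
noncomputable def pn (ℓ : ℕ) (h β : ℝ) (X : Finset g.P) (F : g.E) : ℝ :=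
  nrm (g.cons ℓ h β X) (g.gens X) (Ev.val F)

/-- Setting the fields to zero. -/
noncomputable def noF : g.E →ₗ[ℝ] g.E := evMap (res (Set.range Sum.inr))

/-- Setting the sources to zero. -/
noncomputable def noB : g.E →ₗ[ℝ] g.E := evMap (res (Set.range Sum.inl))

/-- The nilpotent variable of the source `k`. -/
noncomputable def bv (k : g.K) : g.E :=
  pp (Pi.single (Sum.inr (k, 0)) 1) (Pi.single (Sum.inr (k, 1)) 1)

/-- The coefficient of the variable of the source `k`. -/
noncomputable def db (k : g.K) : Gr g.S →ₗ[ℝ] Gr g.S :=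
  del (Pi.single (Sum.inr (k, 1)) 1) ∘ₗ del (Pi.single (Sum.inr (k, 0)) 1)

/-- The edge monomial with its gauge sign. -/
noncomputable def edge (x : g.P) (i : Fin 2) : g.E :=
  g.A (x, i) • pp (Pi.single (Sum.inl (x, if i = 0 then 0 else 1)) 1)
    (Pi.single (Sum.inl (x + uv g.M i, if i = 0 then 2 else 3)) 1)

/-- The density of the edge terms. -/
noncomputable def O1 (x : g.P) : g.E :=
  (1 / 2 : ℝ) • ∑ i, (g.edge x i + g.edge (x - uv g.M i) i)

/-- The site term. -/
noncomputable def site (x : g.P) : g.E :=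
  ∑ a : Fin 4, ∑ b : Fin 4, if a < b then
    pp (Pi.single (Sum.inl (x, a)) 1) (Pi.single (Sum.inl (x, b)) 1) else 0

/-- The density of the critical action. -/
noncomputable def O2 (x : g.P) : g.E := g.site x + tc • g.O1 x

/-- The mass coefficient. -/
noncomputable def cM (x : g.P) (F : Gr g.S) : ℝ :=
  beta F (g.ex (tf0 g.A x 0)) (g.ex (tf0 g.A x 1))

/-- The kinetic coefficients. -/
noncomputable def cK (x : g.P) (F : Gr g.S) (a b i : Fin 2) : ℝ :=
  beta F (g.ex (tf0 g.A x a)) (g.ex (tf1 g.A x b i))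

/-- The invariant kinetic tensor. -/
def kt (a b i : Fin 2) : ℝ :=
  if a = 1 ∧ b = 1 ∧ i = 1 then 1 else if (a : ℕ) + b + i = 1 then -1 else 0

/-- The coefficient of `O1`. -/
noncomputable def nu (x : g.P) (F : g.E) : ℝ := -g.cM x (Ev.val F)

/-- The coefficient of `O2`. -/
noncomputable def ze (x : g.P) (F : g.E) : ℝ :=
  ((∑ a, ∑ b, ∑ i, kt a b i * g.cK x (Ev.val F) a b i) - g.nu x F) / tc

/-- The local quadratic form at `x` with the same relevant and marginal part as `F`. -/
noncomputable def Ext (x : g.P) (F : g.E) : g.E :=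
  g.nu x F • g.O1 x + g.ze x F • g.O2 x +
    ∑ a, ∑ b, ∑ i, (g.cK x (Ev.val F) a b i - kt a b i * (g.nu x F + tc * g.ze x F) / 4) •
      pp (g.ex (fld x a)) (g.ex (dfld g.A x b i))

/-- The marginal coefficient of the source `k` in `F`. -/
noncomputable def zt (k : g.K) (F : g.E) : ℝ := -2 * g.cM (g.src k).y (g.db k (Ev.val F))

/-- The marginal term of the source `k`. -/
noncomputable def bE (k : g.K) : g.E := g.bv k * g.edge (g.src k).y (g.src k).dir

/-- The state of the flow. -/
structure St where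
  K : Finset g.P → g.E
  v : g.P → g.E
  z : g.K → ℝ

/-- The carried terms with support `X`. -/
noncomputable def St.car {g : Geo} (s : g.St) (X : Finset g.P) : g.E :=
  ∑ x ∈ univ.filter (fun x => star x = X), s.v x +
    ∑ k ∈ univ.filter (fun k => star (g.src k).y = X), s.z k • g.bE k

/-- The effective potential. -/
noncomputable def St.H {g : Geo} (s : g.St) (X : Finset g.P) : g.E := s.K X + s.car X

/-- Small sets without flux around them. -/
def Xtr (ℓ ℓ' : ℕ) (U : Finset g.P) : Prop := stein U ≤ ℓ ∧ ∀ x ∈ U, Flat g.A x ℓ'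

/-- Small sets at a renormalised source. -/
def XtrB (j ℓ ℓ' : ℕ) (U : Finset g.P) (k : g.K) : Prop :=
  g.Xtr ℓ ℓ' U ∧ (g.src k).y ∈ U ∧ (g.src k).on = true ∧ j < g.J

/-- The new support. -/
noncomputable def tgt (ℓ : ℕ) (U : Finset g.P) : Finset g.P := if stein U ≤ ℓ then plus U else U

/-- The integrated potential. -/
noncomputable def intg (ℓ ℓ' : ℕ) (s : g.St) : Finset g.P → g.E :=
  Cl (evG (g.exM (covP (Dm g.A) ℓ ℓ'))) s.H

/-- The integrated potential without the constants and the carried terms. -/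
noncomputable def rem (ℓ ℓ' : ℕ) (s : g.St) (U : Finset g.P) : g.E :=
  g.intg ℓ ℓ' s U - g.noF (g.intg ℓ ℓ' s U) - s.car U

open Classical in
/-- The terms extracted from `F` on the set `U`. -/
noncomputable def xtr (j ℓ ℓ' : ℕ) (U : Finset g.P) (F : g.E) : g.E :=
  (if g.Xtr ℓ ℓ' U then ((U.card : ℝ)⁻¹) • ∑ x ∈ U, g.Ext x F else 0) +
    ∑ k ∈ univ.filter (fun k => g.XtrB j ℓ ℓ' U k), g.zt k F • g.bE k

open Classical in
/-- The local term collected at `x`. -/
noncomputable def out (ℓ ℓ' : ℕ) (s : g.St) (x : g.P) : g.E :=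
  ∑ U ∈ univ.filter (fun U => x ∈ U ∧ g.Xtr ℓ ℓ' U), ((U.card : ℝ)⁻¹) • g.rem ℓ ℓ' s U

open Classical in
/-- One step of the flow, with the adjustment `d` of the two couplings. -/
noncomputable def step (j ℓ ℓ' : ℕ) (d : ℝ × ℝ) (s : g.St) : g.St where
  K X := ∑ U ∈ univ.filter (fun U => g.tgt ℓ U = X),
    (g.rem ℓ ℓ' s U - g.xtr j ℓ ℓ' U (g.rem ℓ ℓ' s U))
  v x := s.v x + g.Ext x (g.out ℓ ℓ' s x) + d.1 • g.O1 x + d.2 • g.O2 x
  z k := s.z k + ∑ U ∈ univ.filter (fun U => g.XtrB j ℓ ℓ' U k), g.zt k (g.rem ℓ ℓ' s U)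

end Geo

/-- The scales. -/
def sc (L j : ℕ) : ℕ := 8 * L ^ j

/-! ### The initial potential -/

/-- The sign of the bond from the spin `u` to the spin `u + e_i`; the spin `u` sits at the face
whose south-west vertex is `u`. -/
def bond (n : (ℤ × ℤ) × Fin 2 → Bool) (u : ℤ × ℤ) (i : Fin 2) : ℝ :=
  sgn (n (u + uz i, if i = 0 then 1 else 0))

/-- The product of the bonds from `a` to `b`, first horizontally, then vertically. -/
noncomputable def pHV (n : (ℤ × ℤ) × Fin 2 → Bool) (a b : ℤ × ℤ) : ℝ :=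
  (∏ i ∈ Finset.Ico (min a.1 b.1) (max a.1 b.1), bond n (i, a.2) 0) *
    ∏ i ∈ Finset.Ico (min a.2 b.2) (max a.2 b.2), bond n (b.1, i) 1

/-- A symmetric function of the contours that is the product of the spins of `B`. -/
noncomputable def spinFn (B : Finset (ℤ × ℤ)) (n : (ℤ × ℤ) × Fin 2 → Bool) : ℝ :=
  (2 * (B.card : ℝ))⁻¹ * ∑ a ∈ B, ((∏ b ∈ B, pHV n a b) + ∏ b ∈ B, pHV n b a)

/-- The vertices of the faces of the bounding box of `B`. -/
noncomputable def hull (B : Finset (ℤ × ℤ)) : Finset (ℤ × ℤ) :=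
  (B ×ˢ B).biUnion fun p => Finset.Icc (min p.1.1 p.2.1) (max p.1.1 p.2.1 + 1) ×ˢ
    Finset.Icc (min p.1.2 p.2.2) (max p.1.2 p.2.2 + 1)

/-- The sets that contain the origin and lie in the square of radius `R`. -/
noncomputable def potSets (R : ℕ) : Finset (Finset (ℤ × ℤ)) :=
  ((Finset.Icc (-(R : ℤ)) R ×ˢ Finset.Icc (-(R : ℤ)) R).powerset).filter fun B => (0, 0) ∈ B

/-- The microscopic parameters: potential, its range, `μ = β λ`, the contour weight `x` and the
field strength `Z`. -/
structure Par where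
  V : Finset (ℤ × ℤ) → ℝ
  R : ℕ
  μ : ℝ
  x : ℝ
  Z : ℝ

namespace Geo

variable (g : Geo)

/-- Contour configurations. -/
abbrev Cfg : Type := Tor g.M × Fin 2 → Bool

/-- A configuration seen from the point `y`. -/
def see (y : g.P) (n : g.Cfg) (e : (ℤ × ℤ) × Fin 2) : Bool := n (y + prj g.M e.1, e.2)

/-- A set of the plane lattice placed at `y`. -/
def put (y : g.P) (Y : Finset (ℤ × ℤ)) : Finset g.P := Y.image fun v => y + prj g.M v

/-- The interaction and the sources, as functions of the contours. -/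
noncomputable def Hin (q : Par) (X : Finset g.P) (n : g.Cfg) : g.E :=
  (∑ y : g.P, ∑ B ∈ (potSets q.R).filter (fun B => g.put y (hull B) = X),
    q.μ * q.V B / B.card * spinFn B (g.see y n)) • (1 : g.E) +
  ∑ k ∈ univ.filter (fun k => g.put (g.src k).y (g.src k).Y = X),
    (g.src k).O (g.see (g.src k).y n) • g.bv k

/-- The occupation numbers are replaced by the edge monomials with weight `w`. -/
noncomputable def E0 (w : ℝ) : (g.Cfg → g.E) →ₗ[ℝ] g.E where
  toFun F := ∑ n : g.Cfg, F n *
    ∏ e : Tor g.M × Fin 2, if n e then w • g.edge e.1 e.2 else 1 - w • g.edge e.1 e.2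
  map_add' F G := by simp [add_mul, Finset.sum_add_distrib]
  map_smul' c F := by simp [Finset.smul_sum]

/-- The initial potential with its constants. -/
noncomputable def W0 (q : Par) : Finset g.P → g.E := Cl (g.E0 (q.x * q.Z)) (g.Hin q)

/-- The initial coefficient of a source. -/
noncomputable def z0 (q : Par) (k : g.K) : ℝ := if (g.src k).on then -2 * (q.x * q.Z) else 0

/-- The initial state. -/
noncomputable def init (q : Par) : g.St where
  K X := g.W0 q X - g.noF (g.W0 q X) -
    ∑ k ∈ univ.filter (fun k => g.put (g.src k).y (g.src k).Y = X), g.z0 q k • g.bE k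
  v x := (q.Z * (q.x - tc)) • g.O1 x + (q.Z - 1) • g.O2 x
  z := g.z0 q

/-- The flow. -/
noncomputable def flow (L : ℕ) (q : Par) (d : ℕ → ℝ × ℝ) : ℕ → g.St
  | 0 => g.init q
  | j + 1 => g.step j (sc L j) (sc L (j + 1)) (d j) (flow L q d j)

/-- The constants extracted at the step `j`. -/
noncomputable def cst (L : ℕ) (q : Par) (j : ℕ) (U : Finset g.P) : g.E :=
  g.noF (g.intg (sc L j) (sc L (j + 1)) (g.flow L q 0 j) U)

/-- The last integration. -/
noncomputable def last (L : ℕ) (q : Par) (N : ℕ) : Finset g.P → g.E :=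
  Cl (evG (g.exM (covL (Dm g.A) (sc L N)))) (g.flow L q 0 N).H

end Geo

end Vale.Agent.P144Z
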