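import Vale.Agent.P144Z.Top

/-!
The class of geometries of the main estimate and the bounds on the constants of the flow.
-/

namespace Vale.Agent.P144Z

open Finset Matrix

namespace Geo

variable (g : Geo)

/-- The norm of the algebra of the sources. -/
noncomputable def ps (β : ℝ) (U : Finset g.P) (F : g.E) : ℝ := g.pn 1 1 β U F

/-- At most `N` defects at mutual distance more than `r`, in the square of radius `Λ r`, in a
sector that is antiperiodic in some direction. -/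
structure Nice (N Λ r : ℕ) : Prop where
  ok : g.Ok
  on : ∀ k, (g.src k).on = true
  sep : g.Sep r
  cl : ∃ A', Cluster g.A A' 0 (Λ * r) r ∧ ∃ i, Anti A' i
  src : ∀ k, tdist (g.src k).y 0 ≤ Λ * r
  card : ∃ Z : Finset g.P, Z.card ≤ N ∧ (∀ f, flux g.A f = -1 → f ∈ Z) ∧ ∀ k, (g.src k).y ∈ Z

/-- The supports of the carried source terms. -/
def Exc (U : Finset g.P) : Prop :=
  ∃ k, U = star (g.src k).y ∨ U = g.put (g.src k).y (g.src k).Y

open Classical in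
/-- The bounds on the constants of the flow; `w * sc L j` is the weight of the sources. -/
structure FlowB (L : ℕ) (q : Par) (N : ℕ) (Zε w a b : ℝ) : Prop where
  inv : ∀ v, Dm g.A *ᵥ v = 0 → v = 0
  conv : g.Conv L q N
  conv0 : g.Conv L par0 N
  early : ∀ j ≤ g.J, Anch (sc L j) (2 * L)
    (fun U => if g.Exc U then 0 else g.ps (w * sc L j) U (g.cs L q j U)) (a / 2 ^ j)
  early0 : ∀ j ≤ g.J, ∀ U, ¬ g.Exc U → g.cs L par0 j U = 0
  late : ∀ j, g.J < j → j ≤ N → Anch (sc L j) (2 * L) (fun U => g.ps (w * sc L g.J) U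
    (g.cs L q j U - g.scB Zε (g.cs L par0 j U))) (a / 2 ^ j)
  late0 : ∀ j, g.J < j → j ≤ N → Anch (sc L j) (2 * L) (fun U => g.ps (w * sc L g.J) U
    (g.scB Zε (g.cs L par0 j U))) (b / 2 ^ (j - g.J))
  last : ∑ U, g.ps (w * sc L g.J) U
    (g.noF (g.last L q N U) - g.scB Zε (g.noF (g.last L par0 N U))) ≤ a / 2 ^ N
  last0 : ∑ U, g.ps (w * sc L g.J) U (g.scB Zε (g.noF (g.last L par0 N U))) ≤ b

end Geo

/-- The bounds on the flow in the geometries of the main estimate. -/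
def FlowStmt : Prop :=
  ∃ L₀ : ℕ, ∀ L ≥ L₀, ∃ C : ℝ, 1 ≤ C ∧ ∃ η₀ > 0, ∀ η, 0 < η → η ≤ η₀ → ∀ R : ℕ, ∃ δ₀ > 0,
    ∀ q : Par, q.R = R → Crit L q η δ₀ → ∃ Zε : ℝ, |Zε - 1| ≤ C * η ∧ ∀ N₀ Λ : ℕ, 1 ≤ Λ →
      ∃ w > 0, ∃ J₀ : ℕ, ∀ J ≥ J₀, ∀ r : ℕ, 8 * sc L J ≤ r → r ≤ 8 * sc L (J + 1) → ∃ M₀ : ℕ,
        ∀ g : Geo, g.J = J → g.Nice N₀ Λ r → M₀ ≤ g.M → ∀ N : ℕ, 16 * sc L N ≤ g.M →
          g.M ≤ 16 * sc L (N + 1) → g.FlowB L q N Zε w (C * η) C

end Vale.Agent.P144Z
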